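import Vale.Agent.P042.H258.NumE

/-!
# Numbers of the power regime of `P042`, part G: the sums of the bounds at one scale (helper258)

`x_num`: the bounds `X j` of the top primes (892's `lvnum_F`), only at the scales
`ell j ≥ (2 - kap) p`; `e_num`: the order zero of the kernels.
-/

namespace Vale.Agent.P042.H258

open Finset Filter

/-- the top primes: `192 k Θ exp ((-1/2 + τ + σ) ell) ≤ exp (G ell) / 4` if `ell ≥ (2 - kap) p` -/
theorem x_num {G kap τ σ : ℝ} (k : ℕ) (hk0 : 0 ≤ kap) (hk : kap < 2)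
    (h : 1 / (2 - kap) - 1 / 2 + τ + σ < G) :
    ∃ p0 : ℝ, 1 ≤ p0 ∧ ∀ p : ℝ, p0 ≤ p → ∀ ell Θ : ℝ, (2 - kap) * p ≤ ell → 0 ≤ Θ →
      Θ ≤ Real.exp p →
      192 * k * Θ * Real.exp ((-(1 / 2) + τ + σ) * ell) ≤ Real.exp (G * ell) / 4 := by
  obtain ⟨e, he⟩ : ∃ e : ℝ, e = G - (1 / (2 - kap) - 1 / 2 + τ + σ) := ⟨_, rfl⟩
  have he0 : 0 < e := by rw [he]; linarith
  have hk2 : 0 < 2 - kap := by linarith
  have e1 := (ev_exp (eventually_ge_atTop (768 * (k : ℝ))))
  have e2 : ∀ᶠ p : ℝ in atTop, 768 * (k : ℝ) ≤ Real.exp (e * ((2 - kap) * p)) := by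
    have h2 := ev_pexp (a := 0) (b := e * (2 - kap)) (by positivity) 0 (768 * (k : ℝ)) one_pos
    filter_upwards [h2] with p hp
    simp only [zero_mul, Real.exp_zero, mul_one, pow_zero, one_mul] at hp
    rwa [mul_assoc] at hp
  obtain ⟨p1, hp1⟩ := eventually_atTop.1 e2
  refine ⟨max p1 1, le_max_right _ _, ?_⟩
  intro p hp ell Θ hell hΘ0 hΘ
  have h1 := hp1 p (le_trans (le_max_left _ _) hp)
  have hp0 : 0 < p := lt_of_lt_of_le one_pos (le_trans (le_max_right _ _) hp)
  have hell0 : 0 < ell := lt_of_lt_of_le (by positivity) hell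
  have h2 : Θ ≤ Real.exp (1 / (2 - kap) * ell) := by
    refine hΘ.trans (Real.exp_le_exp.2 ?_)
    rw [div_mul_eq_mul_div, one_mul, le_div_iff₀ hk2]
    linarith
  have h3 : 768 * (k : ℝ) ≤ Real.exp (e * ell) := by
    refine h1.trans (Real.exp_le_exp.2 (mul_le_mul_of_nonneg_left hell he0.le))
  have h4 : Real.exp (G * ell) = Real.exp (e * ell) * Real.exp (1 / (2 - kap) * ell) *
      Real.exp ((-(1 / 2) + τ + σ) * ell) := by
    rw [← Real.exp_add, ← Real.exp_add]
    congr 1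
    rw [he]
    ring
  rw [h4]
  have h5 : 768 * (k : ℝ) * Θ ≤ Real.exp (e * ell) * Real.exp (1 / (2 - kap) * ell) :=
    mul_le_mul h3 h2 hΘ0 (Real.exp_pos _).le
  have h6 := mul_le_mul_of_nonneg_right h5 (Real.exp_pos ((-(1 / 2) + τ + σ) * ell)).le
  linarith

/-- the order zero of the kernels: `2 ∑_{ty i = j} e i ≤ exp (G ell j) / 4` -/
theorem e_num {G γ : ℝ} (h : γ < G) : ∃ K0 : ℕ, ∀ {ι J : Type*} [Fintype ι] [DecidableEq J]
    (sn : J → ℕ) (ell : J → ℝ) (ty : ι → J) (e : ι → ℝ), (∀ j, ell j = sn j * Real.log 2) →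
    (∀ j, K0 ≤ sn j) → (∀ i, e i ≤ Real.exp (-ell (ty i) + γ * ell (ty i))) →
    (∀ j, ((univ.filter fun i => ty i = j).card : ℝ) ≤ Real.exp (ell j)) →
    ∀ j, 2 * ∑ i, (if ty i = j then e i else 0) ≤ Real.exp (G * ell j) / 4 := by
  have hl2 : 0 < Real.log 2 := Real.log_pos (by norm_num)
  obtain ⟨K0, hK0⟩ := ex_scale (e := (G - γ) * Real.log 2) (mul_pos (by linarith) hl2) 8
  refine ⟨K0, ?_⟩
  intro ι J _ _ sn ell ty e hell hsn he hcard j
  have h1 : ∑ i, (if ty i = j then e i else 0) ≤ Real.exp (γ * ell j) := by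
    rw [← sum_filter]
    calc ∑ i with ty i = j, e i ≤ ∑ i with ty i = j, Real.exp (-ell j + γ * ell j) := by
          refine sum_le_sum fun i hi => ?_
          rw [mem_filter] at hi
          have := he i
          rwa [hi.2] at this
      _ = ((univ.filter fun i => ty i = j).card : ℝ) * Real.exp (-ell j + γ * ell j) := by
          rw [sum_const, nsmul_eq_mul]
      _ ≤ Real.exp (ell j) * Real.exp (-ell j + γ * ell j) :=
          mul_le_mul_of_nonneg_right (hcard j) (Real.exp_pos _).le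
      _ = Real.exp (γ * ell j) := by
          rw [← Real.exp_add]
          congr 1
          ring
  have h2 := hK0 _ (hsn j)
  have h3 : Real.exp (G * ell j) = Real.exp ((G - γ) * Real.log 2 * sn j) *
      Real.exp (γ * ell j) := by
    rw [← Real.exp_add, hell j]
    congr 1
    ring
  rw [h3]
  have h4 := mul_le_mul_of_nonneg_right h2 (Real.exp_pos (γ * ell j)).le
  linarith

end Vale.Agent.P042.H258
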