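import Vale.Agent.P042.H258.NumB

/-!
# Numbers of the power regime of `P042`, part D: the numbers of F.F1d (helper258)

`f1d_numbers`: all numerical hypotheses of `H527.mix_nv_poly` and `H461.abs2_F` for the radii
`r j ≤ min (exp (cr ell j)) (b0 ^ cr)` of `end_numbers`.
-/

namespace Vale.Agent.P042.H258

open Finset Filter

/-- capacity with an arbitrary constant and power of the logarithm -/
theorem ev_cap' {b γ κ β' cr θ C K : ℝ} (k : ℕ) (hb : 0 < b) (hγ : 0 ≤ γ) (hθ : 0 < θ)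
    (hC : 1 ≤ C) (hK : 0 ≤ K) (h : (2 - κ) * (1 / 2 + 5 * γ / b) + β' * cr < 1) :
    ∀ᶠ P : ℝ in atTop, ∀ (ns : ℕ) (Rm : ℝ), Real.exp (b * ns) ≤ C * P ^ (2 - κ) → 0 ≤ Rm →
      Rm ≤ (2 * P ^ β') ^ cr →
      K * Rm * ns ^ 2 * Real.exp ((b / 2 + 5 * γ) * ns) * Real.log P ^ k ≤ θ * P := by
  set q : ℝ := 1 / 2 + 5 * γ / b with hq
  have hq0 : 0 < q := by positivity
  have hlC : 0 ≤ Real.log C := Real.log_nonneg hC
  -- the constant
  set D : ℝ := (Real.log C + |2 - κ|) / b with hD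
  have hD0 : 0 ≤ D := by positivity
  have h1 := ev_small (a := (2 - κ) * q + β' * cr) (b := 1) h (2 + k)
    (K * (2 : ℝ) ^ cr * D ^ 2 * C ^ q) hθ
  filter_upwards [h1, eventually_ge_atTop (1 : ℝ), ev_log_ge 1] with P hP hP1 hlP ns Rm hns hR0 hR
  have hP0 : 0 < P := by linarith
  have hC0 : 0 < C := by linarith
  have hCP : 0 < C * P ^ (2 - κ) := mul_pos hC0 (Real.rpow_pos_of_pos hP0 _)
  -- `ns ≤ D log P`
  have hns1 : (ns : ℝ) ≤ D * Real.log P := by
    have h2 : b * ns ≤ Real.log (C * P ^ (2 - κ)) := by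
      rw [Real.le_log_iff_exp_le hCP]; exact hns
    rw [Real.log_mul hC0.ne' (Real.rpow_pos_of_pos hP0 _).ne', Real.log_rpow hP0] at h2
    have h3 : (2 - κ) * Real.log P ≤ |2 - κ| * Real.log P :=
      mul_le_mul_of_nonneg_right (le_abs_self _) (by linarith)
    have h4 : Real.log C ≤ Real.log C * Real.log P := by nlinarith
    rw [hD, div_mul_eq_mul_div, le_div_iff₀ hb]
    linarith [mul_comm b (ns : ℝ), add_mul (Real.log C) |2 - κ| (Real.log P)]
  have hlP0 : 0 ≤ Real.log P := by linarith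
  have hns2 : (ns : ℝ) ^ 2 ≤ D ^ 2 * Real.log P ^ 2 := by
    rw [← mul_pow]
    exact pow_le_pow_left₀ (Nat.cast_nonneg _) hns1 2
  -- the exponential
  have hexp : Real.exp ((b / 2 + 5 * γ) * ns) ≤ C ^ q * P ^ ((2 - κ) * q) := by
    have h5 : (b / 2 + 5 * γ) * ns = (b * ns) * q := by
      rw [hq]; field_simp
    rw [h5, Real.exp_mul]
    refine (Real.rpow_le_rpow (Real.exp_pos _).le hns hq0.le).trans (le_of_eq ?_)
    rw [Real.mul_rpow hC0.le (Real.rpow_nonneg hP0.le _), ← Real.rpow_mul hP0.le]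
  have hR' : Rm ≤ (2 : ℝ) ^ cr * P ^ (β' * cr) := by
    refine hR.trans (le_of_eq ?_)
    rw [Real.mul_rpow (by norm_num) (Real.rpow_nonneg hP0.le _), ← Real.rpow_mul hP0.le]
  have e1 : P ^ ((2 - κ) * q + β' * cr) = P ^ ((2 - κ) * q) * P ^ (β' * cr) :=
    Real.rpow_add hP0 _ _
  have e2 : Real.log P ^ (2 + k) = Real.log P ^ 2 * Real.log P ^ k := pow_add _ _ _
  calc K * Rm * ns ^ 2 * Real.exp ((b / 2 + 5 * γ) * ns) * Real.log P ^ k
      ≤ K * ((2 : ℝ) ^ cr * P ^ (β' * cr)) * (D ^ 2 * Real.log P ^ 2) *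
          (C ^ q * P ^ ((2 - κ) * q)) * Real.log P ^ k := by
        have p1 : 0 ≤ P ^ (β' * cr) := Real.rpow_nonneg hP0.le _
        have p2 : (0 : ℝ) ≤ (2 : ℝ) ^ cr := Real.rpow_nonneg (by norm_num) _
        gcongr
    _ = K * (2 : ℝ) ^ cr * D ^ 2 * C ^ q * P ^ ((2 - κ) * q + β' * cr) *
          Real.log P ^ (2 + k) := by rw [e1, e2]; ring
    _ ≤ θ * P ^ (1 : ℝ) := hP
    _ = θ * P := by rw [Real.rpow_one]

/-- sum over the sites of a function decaying like `exp (-(b/2) s)` -/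
theorem sum_sites {ι : Type*} [Fintype ι] {b e B : ℝ} (sc : ι → ℕ) {ns : ℕ} (hb : 0 ≤ b)
    (he : 0 ≤ e) (hB : 0 ≤ B) (hs : ∀ i, sc i < ns)
    (hc : ∀ s : ℕ, ((univ.filter fun i => sc i = s).card : ℝ) ≤ Real.exp (b * s)) (F : ι → ℝ)
    (hF : ∀ i, F i ≤ B * Real.exp ((-(b / 2) + e) * sc i)) :
    ∑ i, F i ≤ B * ns ^ 2 * Real.exp ((b / 2 + e) * ns) := by
  classical
  have h1 : ∑ i, F i = ∑ s ∈ range ns, ∑ i with sc i = s, F i := by
    rw [← Finset.sum_fiberwise_of_maps_to (s := univ) (t := range ns) (g := sc)]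
    intro i _
    exact mem_range.2 (hs i)
  have h2 : ∀ s ∈ range ns, ∑ i with sc i = s, F i ≤ B * Real.exp ((b / 2 + e) * ns) := by
    intro s hs'
    have hsn : (s : ℝ) ≤ ns := by exact_mod_cast (mem_range.1 hs').le
    calc ∑ i with sc i = s, F i ≤ ∑ i with sc i = s, B * Real.exp ((-(b / 2) + e) * s) := by
          refine sum_le_sum fun i hi => ?_
          rw [mem_filter] at hi
          have := hF i
          rwa [hi.2] at this
      _ = ((univ.filter fun i => sc i = s).card : ℝ) * (B * Real.exp ((-(b / 2) + e) * s)) := by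
          rw [sum_const, nsmul_eq_mul]
      _ ≤ Real.exp (b * s) * (B * Real.exp ((-(b / 2) + e) * s)) :=
          mul_le_mul_of_nonneg_right (hc s) (mul_nonneg hB (Real.exp_pos _).le)
      _ = B * Real.exp ((b / 2 + e) * s) := by
          rw [mul_left_comm, ← Real.exp_add]
          congr 2
          ring
      _ ≤ B * Real.exp ((b / 2 + e) * ns) := by
          refine mul_le_mul_of_nonneg_left (Real.exp_le_exp.2 ?_) hB
          exact mul_le_mul_of_nonneg_left hsn (by positivity)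
  rw [h1]
  refine (sum_le_sum h2).trans ?_
  rw [sum_const, card_range, nsmul_eq_mul]
  have h3 : (ns : ℝ) ≤ (ns : ℝ) ^ 2 := by
    rcases Nat.eq_zero_or_pos ns with h | h
    · simp [h]
    · have : (1 : ℝ) ≤ ns := by exact_mod_cast h
      nlinarith
  have h4 : 0 ≤ B * Real.exp ((b / 2 + e) * ns) := mul_nonneg hB (Real.exp_pos _).le
  calc (ns : ℝ) * (B * Real.exp ((b / 2 + e) * ns))
      ≤ (ns : ℝ) ^ 2 * (B * Real.exp ((b / 2 + e) * ns)) := mul_le_mul_of_nonneg_right h3 h4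
    _ = B * ns ^ 2 * Real.exp ((b / 2 + e) * ns) := by ring

/-- a constant times `exp (-(e s))` is small for large scales -/
theorem ex_scale {e : ℝ} (he : 0 < e) (C : ℝ) : ∃ s0 : ℕ, ∀ s : ℕ, s0 ≤ s →
    C ≤ Real.exp (e * s) := by
  obtain ⟨s0, hs0⟩ := exists_nat_gt (Real.log (|C| + 1) / e)
  refine ⟨s0, fun s hs => ?_⟩
  have h0 : 0 < |C| + 1 := by positivity
  have h1 : Real.log (|C| + 1) ≤ e * s := by
    rw [div_lt_iff₀ he] at hs0
    have : (s0 : ℝ) ≤ s := by exact_mod_cast hs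
    nlinarith
  have h2 : |C| + 1 ≤ Real.exp (e * s) := by
    rwa [← Real.log_le_iff_le_exp h0]
  linarith [le_abs_self C]

/-- **the numbers of `mix_nv_poly` and `abs2_F`** for one vector of radii -/
structure F1Num {ι J : Type*} [Fintype ι] [Fintype J] (m : ℕ) (b γ ρ g0 Λ : ℝ) (sn : J → ℕ)
    (ty : ι → J) (rh c ℓ : ι → ℝ) (r : J → ℝ) (Rs : ℕ → ℝ) (ns kk d : ℕ) : Prop where
  /-- the rates -/
  s0 : ∀ i, 0 ≤ 2 * rh i * r (ty i)
  r1 : ∀ i, (8 * m + 32) * (2 * rh i * r (ty i)) ≤ 1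
  s1 : ∀ i, (8 * m * (1 + c i)) ^ 2 * (2 * rh i * r (ty i)) ≤ 1
  hd : (kk : ℝ) + 2 * ∑ i, (8 * m * (1 + c i)) ^ 2 * (2 * rh i * r (ty i)) ≤ d
  /-- capacity of `abs2_F`, `σ = (8 m + 32) s` -/
  cap : 8 * ∑ i, ((8 * m + 32) * (2 * rh i * r (ty i))) *
    Real.exp (4 * γ * sn (ty i) + 1) * ℓ i ≤ Λ
  len : ∀ T : Finset ι, T.card ≤ d → 2 * ∑ i ∈ T, ℓ i ≤ Λ
  /-- the radii as a function of the scale -/
  R0 : ∀ s, 0 ≤ Rs s
  Rρ : ∀ s, Rs s ≤ Real.exp (ρ * s)
  Rσ : ∀ i, (8 * m + 32) * (2 * rh i * r (ty i)) ≤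
    Real.exp ((-(b / 2) + γ) * sn (ty i)) * Rs (sn (ty i))
  Rsum : ∑ s ∈ range ns, Real.exp (19 * γ * s) * Rs s ^ 2 ≤
    ∑ j, Real.exp (19 * γ * sn j) * (16 * m + 64) ^ 2 * r j ^ 2
  /-- the local constant is at most a quarter of `exp (g0 ell)` -/
  Bl : ∀ j, Real.exp (19 * γ * sn j) * (16 * m + 64) ^ 2 ≤ Real.exp (g0 * (b * sn j)) / 4

/-- **the numbers of F.F1d** -/
theorem f1d_numbers {b γ ρ cr κ β' g0 C : ℝ} (m : ℕ) (hb : 0 < b) (hγ : 0 < γ)
    (hcr : 0 < cr) (hC : 1 ≤ C)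
    (hρ : cr * b < ρ) (h1 : 3 * γ + cr * b < b / 2) (hg : 19 * γ < g0 * b)
    (h2 : (2 - κ) * (1 / 2 + 5 * γ / b) + β' * cr < 1) :
    ∃ s0 : ℕ, ∀ {θ θ1 θ2 : ℝ}, 0 < θ → θ1 < θ2 → 0 ≤ θ2 → 6 * θ2 ≤ θ →
    ∃ P0 : ℝ, 1 ≤ P0 ∧ ∀ P : ℝ, P0 ≤ P → ∀ {ι J : Type*} [Fintype ι] [Fintype J]
      (sn : J → ℕ) (ty : ι → J) (rh c ℓ : ι → ℝ) (ns kk b0 : ℕ),
      Function.Injective sn → (∀ j, s0 ≤ sn j) → (∀ i, sn (ty i) < ns) →
      Real.exp (b * ns) ≤ C * P ^ (2 - κ) →
      (∀ s : ℕ, ((univ.filter fun i => sn (ty i) = s).card : ℝ) ≤ Real.exp (b * s)) →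
      (∀ i, 0 ≤ rh i) → (∀ i, rh i ≤ Real.exp ((-(b / 2) + γ) * sn (ty i))) →
      (∀ i, 0 ≤ c i) → (∀ i, c i ≤ Real.exp (γ * sn (ty i))) →
      (∀ i, 0 ≤ ℓ i) → (∀ i, ℓ i ≤ 3 * Real.log P) →
      (b0 : ℝ) ≤ 2 * P ^ β' → (kk : ℝ) ≤ θ1 * P / Real.log P →
      ∀ r : J → ℝ, (∀ j, 0 ≤ r j) →
        (∀ j, r j ≤ min (Real.exp (cr * (b * sn j))) ((b0 : ℝ) ^ cr)) →
        ∃ Rs : ℕ → ℝ, F1Num m b γ ρ g0 (θ * P) sn ty rh c ℓ r Rs ns kk
          ⌊θ2 * P / Real.log P⌋₊ := by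
  -- scales
  obtain ⟨s1, hs1⟩ := ex_scale (e := b / 2 - γ - cr * b) (by linarith) (16 * m + 64)
  obtain ⟨s2, hs2⟩ := ex_scale (e := b / 2 - 3 * γ - cr * b) (by linarith) (512 * m ^ 2)
  obtain ⟨s3, hs3⟩ := ex_scale (e := ρ - cr * b) (by linarith) (16 * m + 64)
  obtain ⟨s4, hs4⟩ := ex_scale (e := g0 * b - 19 * γ) (by linarith) (4 * (16 * m + 64) ^ 2)
  refine ⟨max (max s1 s2) (max s3 s4), ?_⟩
  intro θ θ1 θ2 hθ h12 h20 h2θ
  -- asymptotics
  have a1 := ev_cap' (b := b) (γ := γ) (κ := κ) (β' := β') (cr := cr) (θ := (θ2 - θ1) / 2)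
    (C := C) (K := 1024 * m ^ 2) 1 hb hγ.le (by linarith) hC (by positivity) h2
  have a2 := ev_cap' (b := b) (γ := γ) (κ := κ) (β' := β') (cr := cr) (θ := θ)
    (C := C) (K := 8 * (16 * m + 64) * Real.exp 1 * 3) 1 hb hγ.le hθ hC (by positivity) h2
  have a3 := ev_log (b := 1) one_pos 1 (2 / (θ2 - θ1))
  obtain ⟨P1, hP1⟩ := eventually_atTop.1 (a1.and (a2.and (a3.and (ev_log_ge 1))))
  refine ⟨max P1 1, le_max_right _ _, ?_⟩
  intro P hP ι J _ _ sn ty rh c ℓ ns kk b0 hinj hs0 hns hCP hcard hrh0 hrh hc0 hc hℓ0 hℓ hb0 hkk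
    r hr0 hr
  classical
  obtain ⟨b1, b2, b3, b4⟩ := hP1 P (le_trans (le_max_left _ _) hP)
  have hPge : 1 ≤ P := le_trans (le_max_right _ _) hP
  have hP0 : 0 < P := by linarith
  have hlP : 0 < Real.log P := by linarith
  have hsj : ∀ j, s1 ≤ sn j ∧ s2 ≤ sn j ∧ s3 ≤ sn j ∧ s4 ≤ sn j := fun j => by
    have := hs0 j
    omega
  have hr1 : ∀ j, r j ≤ Real.exp (cr * (b * sn j)) := fun j => (hr j).trans (min_le_left _ _)
  have hr2 : ∀ j, r j ≤ (b0 : ℝ) ^ cr := fun j => (hr j).trans (min_le_right _ _)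
  have hRm0 : (0 : ℝ) ≤ (b0 : ℝ) ^ cr := Real.rpow_nonneg (Nat.cast_nonneg _) _
  have hRm : (b0 : ℝ) ^ cr ≤ (2 * P ^ β') ^ cr :=
    Real.rpow_le_rpow (Nat.cast_nonneg _) hb0 hcr.le
  -- the rate of one site
  have hs : ∀ i, 0 ≤ 2 * rh i * r (ty i) := fun i => by
    have := hrh0 i
    have := hr0 (ty i)
    positivity
  have e1 : ∀ i, 2 * rh i * r (ty i) ≤
      2 * Real.exp ((-(b / 2) + γ + cr * b) * sn (ty i)) := by
    intro i
    calc 2 * rh i * r (ty i)
        ≤ 2 * Real.exp ((-(b / 2) + γ) * sn (ty i)) * Real.exp (cr * (b * sn (ty i))) := by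
          have := hrh0 i
          have := hr0 (ty i)
          have := hrh i
          have := hr1 (ty i)
          gcongr
      _ = 2 * Real.exp ((-(b / 2) + γ + cr * b) * sn (ty i)) := by
          rw [mul_assoc, ← Real.exp_add]
          congr 2
          ring
  have e2 : ∀ i, 2 * rh i * r (ty i) ≤
      2 * (b0 : ℝ) ^ cr * Real.exp ((-(b / 2) + γ) * sn (ty i)) := by
    intro i
    calc 2 * rh i * r (ty i)
        ≤ 2 * Real.exp ((-(b / 2) + γ) * sn (ty i)) * (b0 : ℝ) ^ cr := by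
          have := hrh0 i
          have := hr0 (ty i)
          have := hrh i
          have := hr2 (ty i)
          gcongr
      _ = _ := by ring
  have e3 : ∀ i, (8 * (m : ℝ) * (1 + c i)) ^ 2 ≤ 256 * m ^ 2 * Real.exp (2 * γ * sn (ty i)) := by
    intro i
    have h3 : 1 + c i ≤ 2 * Real.exp (γ * sn (ty i)) := by
      have h4 : 1 ≤ Real.exp (γ * sn (ty i)) := Real.one_le_exp (by positivity)
      linarith [hc i]
    have h5 : 0 ≤ 1 + c i := by linarith [hc0 i]
    calc (8 * (m : ℝ) * (1 + c i)) ^ 2 = 64 * m ^ 2 * (1 + c i) ^ 2 := by ring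
      _ ≤ 64 * m ^ 2 * (2 * Real.exp (γ * sn (ty i))) ^ 2 := by gcongr
      _ = 256 * m ^ 2 * Real.exp (2 * γ * sn (ty i)) := by
          rw [mul_pow, ← Real.exp_nat_mul]
          push_cast
          rw [show (2 : ℝ) * (γ * sn (ty i)) = 2 * γ * sn (ty i) by ring]
          ring
  -- `ns` is large as soon as there is a site; the sums
  have hns0 : (0 : ℝ) ≤ ns := Nat.cast_nonneg _
  set d : ℕ := ⌊θ2 * P / Real.log P⌋₊ with hdef
  have hdle : (d : ℝ) ≤ θ2 * P / Real.log P :=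
    Nat.floor_le (div_nonneg (mul_nonneg h20 hP0.le) hlP.le)
  have hdge : θ2 * P / Real.log P - 1 ≤ d := (Nat.sub_one_lt_floor _).le
  -- radii by scale
  set Rs : ℕ → ℝ := fun s => ∑ j with sn j = s, (16 * (m : ℝ) + 64) * r j with hRs
  have hRs1 : ∀ j, Rs (sn j) = (16 * (m : ℝ) + 64) * r j := by
    intro j
    rw [hRs]
    have : (univ.filter fun j' => sn j' = sn j) = {j} := by
      ext j'
      simp only [mem_filter, mem_univ, true_and, mem_singleton]
      exact ⟨fun h => hinj h, fun h => by rw [h]⟩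
    simp only [this, sum_singleton]
  have hRs0 : ∀ s, (∀ j, sn j ≠ s) → Rs s = 0 := by
    intro s h
    rw [hRs]
    refine sum_eq_zero fun j hj => ?_
    rw [mem_filter] at hj
    exact absurd hj.2 (h j)
  refine ⟨Rs, ⟨hs, ?_, ?_, ?_, ?_, ?_, ?_, ?_, ?_, ?_, ?_⟩⟩
  · -- r1
    intro i
    have h3 := hs1 _ (hsj (ty i)).1
    calc (8 * (m : ℝ) + 32) * (2 * rh i * r (ty i))
        ≤ (8 * m + 32) * (2 * Real.exp ((-(b / 2) + γ + cr * b) * sn (ty i))) :=
          mul_le_mul_of_nonneg_left (e1 i) (by positivity)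
      _ = (16 * m + 64) * Real.exp ((-(b / 2) + γ + cr * b) * sn (ty i)) := by ring
      _ ≤ Real.exp ((b / 2 - γ - cr * b) * sn (ty i)) *
          Real.exp ((-(b / 2) + γ + cr * b) * sn (ty i)) :=
          mul_le_mul_of_nonneg_right h3 (Real.exp_pos _).le
      _ = 1 := by
          rw [← Real.exp_add, show (b / 2 - γ - cr * b) * (sn (ty i) : ℝ) +
            (-(b / 2) + γ + cr * b) * sn (ty i) = 0 by ring, Real.exp_zero]
  · -- s1
    intro i
    have h3 := hs2 _ (hsj (ty i)).2.1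
    calc (8 * (m : ℝ) * (1 + c i)) ^ 2 * (2 * rh i * r (ty i))
        ≤ (256 * m ^ 2 * Real.exp (2 * γ * sn (ty i))) *
            (2 * Real.exp ((-(b / 2) + γ + cr * b) * sn (ty i))) :=
          mul_le_mul (e3 i) (e1 i) (hs i) (by positivity)
      _ = 512 * m ^ 2 * Real.exp ((-(b / 2) + 3 * γ + cr * b) * sn (ty i)) := by
          rw [show (256 * (m : ℝ) ^ 2 * Real.exp (2 * γ * sn (ty i))) *
            (2 * Real.exp ((-(b / 2) + γ + cr * b) * sn (ty i))) = 512 * m ^ 2 *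
            (Real.exp (2 * γ * sn (ty i)) * Real.exp ((-(b / 2) + γ + cr * b) * sn (ty i))) by
              ring, ← Real.exp_add]
          congr 2
          ring
      _ ≤ Real.exp ((b / 2 - 3 * γ - cr * b) * sn (ty i)) *
          Real.exp ((-(b / 2) + 3 * γ + cr * b) * sn (ty i)) :=
          mul_le_mul_of_nonneg_right h3 (Real.exp_pos _).le
      _ = 1 := by
          rw [← Real.exp_add, show (b / 2 - 3 * γ - cr * b) * (sn (ty i) : ℝ) +
            (-(b / 2) + 3 * γ + cr * b) * sn (ty i) = 0 by ring, Real.exp_zero]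
  · -- hd
    have h3 : ∑ i, (8 * (m : ℝ) * (1 + c i)) ^ 2 * (2 * rh i * r (ty i)) ≤
        (512 * m ^ 2 * (b0 : ℝ) ^ cr) * ns ^ 2 * Real.exp ((b / 2 + 5 * γ) * ns) := by
      refine sum_sites (fun i => sn (ty i)) hb.le (by positivity) (by positivity) hns hcard _ ?_
      intro i
      calc (8 * (m : ℝ) * (1 + c i)) ^ 2 * (2 * rh i * r (ty i))
          ≤ (256 * m ^ 2 * Real.exp (2 * γ * sn (ty i))) *
              (2 * (b0 : ℝ) ^ cr * Real.exp ((-(b / 2) + γ) * sn (ty i))) :=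
            mul_le_mul (e3 i) (e2 i) (hs i) (by positivity)
        _ = 512 * m ^ 2 * (b0 : ℝ) ^ cr * Real.exp ((-(b / 2) + 3 * γ) * sn (ty i)) := by
            rw [show (256 * (m : ℝ) ^ 2 * Real.exp (2 * γ * sn (ty i))) *
              (2 * (b0 : ℝ) ^ cr * Real.exp ((-(b / 2) + γ) * sn (ty i))) =
              512 * m ^ 2 * (b0 : ℝ) ^ cr *
              (Real.exp (2 * γ * sn (ty i)) * Real.exp ((-(b / 2) + γ) * sn (ty i))) by
                ring, ← Real.exp_add]
            congr 2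
            ring
        _ ≤ 512 * m ^ 2 * (b0 : ℝ) ^ cr * Real.exp ((-(b / 2) + 5 * γ) * sn (ty i)) := by
            refine mul_le_mul_of_nonneg_left (Real.exp_le_exp.2 ?_) (by positivity)
            refine mul_le_mul_of_nonneg_right ?_ (Nat.cast_nonneg _)
            linarith
    have h4 := b1 ns ((b0 : ℝ) ^ cr) hCP hRm0 hRm
    rw [pow_one] at h4
    have h5 : 2 * ∑ i, (8 * (m : ℝ) * (1 + c i)) ^ 2 * (2 * rh i * r (ty i)) ≤
        (θ2 - θ1) / 2 * P / Real.log P := by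
      rw [le_div_iff₀ hlP]
      refine le_trans ?_ h4
      refine mul_le_mul_of_nonneg_right ?_ hlP.le
      linarith
    have h6 : 1 ≤ (θ2 - θ1) / 2 * P / Real.log P := by
      rw [le_div_iff₀ hlP]
      rw [pow_one, Real.rpow_one] at b3
      have h7 : 0 < θ2 - θ1 := by linarith
      rw [div_mul_eq_mul_div, div_le_iff₀ h7] at b3
      linarith
    have h8 : θ2 * P / Real.log P = θ1 * P / Real.log P + (θ2 - θ1) / 2 * P / Real.log P +
        (θ2 - θ1) / 2 * P / Real.log P := by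
      field_simp
      ring
    linarith
  · -- cap
    have h3 : ∑ i, ((8 * (m : ℝ) + 32) * (2 * rh i * r (ty i))) *
        Real.exp (4 * γ * sn (ty i) + 1) * ℓ i ≤
        ((16 * m + 64) * Real.exp 1 * 3 * Real.log P * (b0 : ℝ) ^ cr) * ns ^ 2 *
          Real.exp ((b / 2 + 5 * γ) * ns) := by
      refine sum_sites (fun i => sn (ty i)) hb.le (by positivity) (by positivity) hns hcard _ ?_
      intro i
      calc ((8 * (m : ℝ) + 32) * (2 * rh i * r (ty i))) * Real.exp (4 * γ * sn (ty i) + 1) * ℓ i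
          ≤ ((8 * (m : ℝ) + 32) * (2 * (b0 : ℝ) ^ cr * Real.exp ((-(b / 2) + γ) * sn (ty i)))) *
              Real.exp (4 * γ * sn (ty i) + 1) * (3 * Real.log P) := by
            have g1 := e2 i
            have g2 := hs i
            have g3 := hℓ i
            have g4 := hℓ0 i
            gcongr
        _ = ((16 * m + 64) * Real.exp 1 * 3 * Real.log P * (b0 : ℝ) ^ cr) *
            Real.exp ((-(b / 2) + 5 * γ) * sn (ty i)) := by
            rw [show (-(b / 2) + 5 * γ) * (sn (ty i) : ℝ) =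
              (-(b / 2) + γ) * sn (ty i) + (4 * γ * sn (ty i)) by ring, Real.exp_add,
              Real.exp_add]
            ring
    have h4 := b2 ns ((b0 : ℝ) ^ cr) hCP hRm0 hRm
    rw [pow_one] at h4
    refine (mul_le_mul_of_nonneg_left h3 (by norm_num)).trans (le_trans (le_of_eq ?_) h4)
    ring
  · -- len
    intro T hT
    have h3 : ∑ i ∈ T, ℓ i ≤ T.card * (3 * Real.log P) := by
      refine (sum_le_sum fun i _ => hℓ i).trans (le_of_eq ?_)
      rw [sum_const, nsmul_eq_mul]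
    have h4 : (T.card : ℝ) ≤ θ2 * P / Real.log P :=
      le_trans (by exact_mod_cast hT) hdle
    have h5 : (T.card : ℝ) * (3 * Real.log P) ≤ 3 * (θ2 * P) := by
      rw [le_div_iff₀ hlP] at h4
      linarith
    nlinarith
  · -- R0
    intro s
    rw [hRs]
    refine sum_nonneg fun j _ => ?_
    have := hr0 j
    positivity
  · -- Rρ
    intro s
    by_cases h : ∃ j, sn j = s
    · obtain ⟨j, rfl⟩ := h
      rw [hRs1]
      calc (16 * (m : ℝ) + 64) * r j ≤ Real.exp ((ρ - cr * b) * sn j) *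
            Real.exp (cr * (b * sn j)) :=
            mul_le_mul (hs3 _ (hsj j).2.2.1) (hr1 j) (hr0 j) (Real.exp_pos _).le
        _ = Real.exp (ρ * sn j) := by
            rw [← Real.exp_add]
            congr 1
            ring
    · rw [hRs0 s (fun j hj => h ⟨j, hj⟩)]
      exact (Real.exp_pos _).le
  · -- Rσ
    intro i
    rw [hRs1]
    calc (8 * (m : ℝ) + 32) * (2 * rh i * r (ty i))
        ≤ (8 * (m : ℝ) + 32) * (2 * Real.exp ((-(b / 2) + γ) * sn (ty i)) * r (ty i)) := by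
          have := hr0 (ty i)
          have := hrh i
          gcongr
      _ = _ := by ring
  · -- Rsum
    have h3 : ∀ s ∈ range ns, Real.exp (19 * γ * s) * Rs s ^ 2 =
        ∑ j with sn j = s, Real.exp (19 * γ * sn j) * (16 * m + 64) ^ 2 * r j ^ 2 := by
      intro s _
      by_cases h : ∃ j, sn j = s
      · obtain ⟨j, rfl⟩ := h
        have : (univ.filter fun j' => sn j' = sn j) = {j} := by
          ext j'
          simp only [mem_filter, mem_univ, true_and, mem_singleton]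
          exact ⟨fun h => hinj h, fun h => by rw [h]⟩
        rw [hRs1, this, sum_singleton]
        ring
      · rw [hRs0 s (fun j hj => h ⟨j, hj⟩), sum_eq_zero]
        · ring
        · intro j hj
          rw [mem_filter] at hj
          exact absurd ⟨j, hj.2⟩ h
    rw [sum_congr rfl h3, Finset.sum_comm' (s := range ns) (t := fun s => univ.filter fun j => sn j = s)
      (s' := fun j => (range ns).filter fun s => sn j = s) (t' := univ)]
    · refine sum_le_sum fun j _ => ?_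
      rw [sum_const, nsmul_eq_mul]
      have h4 : ((range ns).filter fun s => sn j = s).card ≤ 1 := by
        rw [card_le_one]
        intro x hx y hy
        rw [mem_filter] at hx hy
        omega
      have h5 : (((range ns).filter fun s => sn j = s).card : ℝ) ≤ 1 := by exact_mod_cast h4
      have h6 : 0 ≤ Real.exp (19 * γ * sn j) * (16 * (m : ℝ) + 64) ^ 2 * r j ^ 2 := by positivity
      nlinarith
    · intro s j
      simp only [mem_filter, mem_univ, true_and, mem_range, and_true]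
  · -- Bl
    intro j
    have h3 := hs4 _ (hsj j).2.2.2
    have h4 : Real.exp (g0 * (b * sn j)) = Real.exp ((g0 * b - 19 * γ) * sn j) *
        Real.exp (19 * γ * sn j) := by
      rw [← Real.exp_add]
      congr 1
      ring
    rw [h4]
    have h5 := mul_le_mul_of_nonneg_right h3 (Real.exp_pos (19 * γ * sn j)).le
    linarith

end Vale.Agent.P042.H258
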