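import Vale.Agent.P042.H258.NumA

set_option autoImplicit false

/-!
# Numbers of the power regime of `P042`, part H: the numbers of (F1) at one value of `P` (helper258)
-/

namespace Vale.Agent.P042.H258

open Finset Filter

/-- a linear function dominates the logarithm -/
theorem ev_lin {a : ℝ} (ha : 0 < a) (b c : ℝ) :
    ∀ᶠ P : ℝ in atTop, b * Real.log P + c ≤ a * P := by
  filter_upwards [ev_log (b := 1) one_pos 1 (2 * |b| / a), eventually_ge_atTop (2 * |c| / a),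
    ev_log_ge 0] with P h1 h2 h3
  rw [pow_one, Real.rpow_one, div_mul_eq_mul_div, div_le_iff₀ ha] at h1
  rw [div_le_iff₀ ha] at h2
  have h4 : b * Real.log P ≤ |b| * Real.log P := mul_le_mul_of_nonneg_right (le_abs_self b) h3
  have h5 := le_abs_self c
  nlinarith

/-- **the numbers of (F1) at one value of `P`** (`gs` the exponent of the state, `Q0` a bound of the
modulus of the cells, `g0` the exponent bound of the untyped primes) -/
structure PNum (k : ℕ) (C1 gs kp κ θ σ δ0 Q0 g0 P : ℝ) : Prop where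
  P1 : 1 ≤ P
  lP : 3 ≤ Real.log P
  D100 : Real.log 100 ≤ kp * P / 64
  thin : 32 * (kp * P / 64) + Real.log 2 + gs / (5200 * C1) * P + 1 ≤ gs / (2560 * C1) * P
  Dm2 : 2 * Real.exp ((1 - gs / 10) * Real.log P) ≤ kp * P / 64
  NP : Real.exp (P / 4) ≤ Real.exp ((1 - κ) * P)
  VP : Real.exp (P / (16 * k)) * (2 * Real.exp (P / 4)) ≤ Real.exp ((1 - κ) * P) / 100
  ΛP : 4 * (3 * Real.log P) ≤ 24 * θ * P
  cnt : P ^ 2 * (1 + ((1 + gs) * (3 * Real.log P) + Real.log 4)) ≤ Real.exp (4 * Real.log P)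
  DsΛ : Real.log 2 + 4 * Real.log P + 6 * gs * (24 * θ * P) ≤ gs / (5200 * C1) * P
  DM : Q0 * (Real.exp (θ * P) * Real.exp (P / (64 * k) / 2)) * Real.exp (3 * (24 * θ * P)) ≤
    Real.exp (P / (16 * k))
  A1b : 2 * Real.log (2 * Q0 * Real.exp (Real.log 2 + 32 * (kp * P / 64) +
    2 * θ * P / Real.log P * ((1 + gs) * (3 * Real.log P) + Real.log 4))) ≤ σ * (P / (64 * k))
  cap : Real.exp (θ * P) * Real.exp (5 * (P / (64 * k))) ≤ Real.exp ((1 - κ) * P) / 100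
  Mth : 4 * g0 * (θ * P) ≤ P / (64 * k)
  δ : P ^ (-(1 / 8) : ℝ) ≤ δ0

section
variable {P gs x t : ℝ}

theorem log100_le : Real.log 100 ≤ 7 * Real.log 2 := by
  have h1 : Real.log 100 ≤ Real.log ((2 : ℝ) ^ 7) := Real.log_le_log (by norm_num) (by norm_num)
  rwa [Real.log_pow] at h1

theorem log4_eq : Real.log 4 = 2 * Real.log 2 := by
  rw [show (4 : ℝ) = 2 ^ 2 by norm_num, Real.log_pow]
  push_cast
  ring

theorem ph_thin {kp : ℝ} (hP : 0 ≤ P) (hkpg : kp ≤ x / 2560)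
    (w3 : 2 ≤ x * (1 / 2560 - 1 / 5120 - 1 / 5200) * P) :
    32 * (kp * P / 64) + Real.log 2 + x / 5200 * P + 1 ≤ x / 2560 * P := by
  have l2 : Real.log 2 ≤ 1 := by linarith [Real.log_two_lt_d9]
  have h1 : kp * P ≤ x / 2560 * P := mul_le_mul_of_nonneg_right hkpg hP
  linarith

theorem ph_VP {κ : ℝ} (h : 4 * t * P + P / 4 + 8 ≤ (1 - κ) * P) :
    Real.exp (4 * t * P) * (2 * Real.exp (P / 4)) ≤ Real.exp ((1 - κ) * P) / 100 := by
  have l2 : Real.log 2 ≤ 1 := by linarith [Real.log_two_lt_d9]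
  have l100 := log100_le
  rw [le_div_iff₀ (by norm_num)]
  have h1 : Real.exp (4 * t * P) * (2 * Real.exp (P / 4)) * 100 =
      Real.exp (4 * t * P + P / 4 + Real.log 2 + Real.log 100) := by
    rw [Real.exp_add, Real.exp_add, Real.exp_add, Real.exp_log (by norm_num),
      Real.exp_log (by norm_num)]
    ring
  rw [h1, Real.exp_le_exp]
  linarith

theorem ph_cnt (hP1 : 1 ≤ P) (hgs : 0 < gs) (hgs1 : gs ≤ 1) (w1 : 3 ≤ Real.log P)
    (w7 : 9 * Real.log P ≤ P) :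
    P ^ 2 * (1 + ((1 + gs) * (3 * Real.log P) + Real.log 4)) ≤ Real.exp (4 * Real.log P) := by
  have hPp : 0 < P := by linarith
  have l2 : Real.log 2 ≤ 1 := by linarith [Real.log_two_lt_d9]
  have l4 := log4_eq
  have h1 : Real.exp (4 * Real.log P) = P ^ 4 := by
    rw [mul_comm, Real.exp_mul, Real.exp_log hPp]
    norm_cast
  rw [h1]
  have h2 : 1 + ((1 + gs) * (3 * Real.log P) + Real.log 4) ≤ 9 * Real.log P := by
    have : gs * Real.log P ≤ 1 * Real.log P := mul_le_mul_of_nonneg_right hgs1 (by linarith)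
    linarith
  calc P ^ 2 * (1 + ((1 + gs) * (3 * Real.log P) + Real.log 4)) ≤ P ^ 2 * P :=
        mul_le_mul_of_nonneg_left (h2.trans w7) (by positivity)
    _ ≤ P ^ 2 * P * P := le_mul_of_one_le_right (by positivity) hP1
    _ = P ^ 4 := by ring

theorem ph_DM {Q0 θ : ℝ} (hQ00 : 0 < Q0)
    (h : Real.log Q0 + θ * P + t * P / 2 + 3 * (24 * θ * P) ≤ 4 * t * P) :
    Q0 * (Real.exp (θ * P) * Real.exp (t * P / 2)) * Real.exp (3 * (24 * θ * P)) ≤
      Real.exp (4 * t * P) := by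
  have h1 : Q0 * (Real.exp (θ * P) * Real.exp (t * P / 2)) * Real.exp (3 * (24 * θ * P)) =
      Real.exp (Real.log Q0 + θ * P + t * P / 2 + 3 * (24 * θ * P)) := by
    rw [Real.exp_add, Real.exp_add, Real.exp_add, Real.exp_log hQ00]
    ring
  rw [h1, Real.exp_le_exp]
  exact h

theorem ph_A1 {Q0 θ kp σ : ℝ} (hQ0 : 1 ≤ Q0) (hgs : 0 < gs) (hgs1 : gs ≤ 1) (hθ : 0 < θ)
    (hP : 0 < P) (w1 : 3 ≤ Real.log P)
    (h5 : kp * P ≤ σ * t / 200 * P) (h6 : θ * P ≤ σ * t / 100 * P)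
    (w10 : 6 + 2 * Real.log Q0 ≤ σ * t / 2 * P) :
    2 * Real.log (2 * Q0 * Real.exp (Real.log 2 + 32 * (kp * P / 64) +
      2 * θ * P / Real.log P * ((1 + gs) * (3 * Real.log P) + Real.log 4))) ≤ σ * (t * P) := by
  have hQ00 : 0 < Q0 := by linarith
  have l2 : Real.log 2 ≤ 1 := by linarith [Real.log_two_lt_d9]
  have l4 := log4_eq
  have hlp : 0 < Real.log P := by linarith
  rw [Real.log_mul (by positivity) (Real.exp_pos _).ne', Real.log_exp,
    Real.log_mul (by norm_num) hQ00.ne']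
  have h1 : 2 * θ * P / Real.log P * ((1 + gs) * (3 * Real.log P) + Real.log 4) =
      6 * (1 + gs) * (θ * P) + 2 * θ * P * (Real.log 4 / Real.log P) := by
    field_simp
    ring
  have h2 : Real.log 4 / Real.log P ≤ 1 := by
    rw [div_le_one hlp]
    linarith
  have h3 : 2 * θ * P * (Real.log 4 / Real.log P) ≤ 2 * θ * P :=
    mul_le_of_le_one_right (by positivity) h2
  have h4 : 6 * (1 + gs) * (θ * P) ≤ 12 * (θ * P) := by
    have h7 : 0 < θ * P := by positivity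
    have h8 : gs * (θ * P) ≤ 1 * (θ * P) := mul_le_mul_of_nonneg_right hgs1 h7.le
    linarith
  have h7 : 0 < θ * P := by positivity
  rw [h1]
  linarith

theorem ph_cap {θ κ : ℝ} (h : θ * P + 5 * (t * P) + 7 ≤ (1 - κ) * P) :
    Real.exp (θ * P) * Real.exp (5 * (t * P)) ≤ Real.exp ((1 - κ) * P) / 100 := by
  have l2 : Real.log 2 ≤ 1 := by linarith [Real.log_two_lt_d9]
  have l100 := log100_le
  rw [le_div_iff₀ (by norm_num)]
  have h1 : Real.exp (θ * P) * Real.exp (5 * (t * P)) * 100 =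
      Real.exp (θ * P + 5 * (t * P) + Real.log 100) := by
    rw [Real.exp_add, Real.exp_add, Real.exp_log (by norm_num)]
  rw [h1, Real.exp_le_exp]
  linarith

end

/-- **the numbers hold for large `P`** -/
theorem pNum {k : ℕ} {C1 gs kp κ θ σ δ0 Q0 g0 : ℝ} (hk : 2 ≤ k) (hC1 : 1 ≤ C1) (hgs : 0 < gs)
    (hgs1 : gs ≤ 1) (hkp : 0 < kp) (hkpg : kp ≤ gs / (2560 * C1)) (hkpκ : kp ≤ κ)
    (hθ : 0 < θ) (hg0 : 64 ≤ g0) (hθ1 : θ ≤ 1 / (64 * k) / (4 * g0))
    (hθ2 : θ ≤ σ * (1 / (64 * k)) / 100) (hθ3 : θ ≤ 1 / (800000 * C1)) (hσ : 0 < σ) (hσ1 : σ ≤ 1)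
    (hκ : κ ≤ σ * (1 / (64 * k)) / 200) (hδ0 : 0 < δ0) (hQ0 : 1 ≤ Q0) :
    ∃ P0 : ℝ, 1 ≤ P0 ∧ ∀ P : ℝ, P0 ≤ P → PNum k C1 gs kp κ θ σ δ0 Q0 g0 P := by
  have hkr : (2 : ℝ) ≤ k := by exact_mod_cast hk
  have hk0 : (0 : ℝ) < k := by linarith
  have hC0 : 0 < C1 := by linarith
  obtain ⟨t, ht⟩ : ∃ t : ℝ, t = 1 / (64 * k) := ⟨_, rfl⟩
  have ht0 : 0 < t := by rw [ht]; positivity
  have ht1 : t ≤ 1 / 128 := by
    rw [ht]
    exact one_div_le_one_div_of_le (by norm_num) (by linarith)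
  rw [← ht] at hθ1 hθ2 hκ
  have e64 : ∀ P : ℝ, P / (64 * k) = t * P := fun P => by rw [ht]; ring
  have e16 : ∀ P : ℝ, P / (16 * k) = 4 * t * P := fun P => by
    rw [ht]; field_simp; ring
  have hθt : 256 * θ ≤ t := by
    rw [le_div_iff₀ (by linarith)] at hθ1
    have : θ * 256 ≤ θ * (4 * g0) := mul_le_mul_of_nonneg_left (by linarith) hθ.le
    linarith
  have hσt : σ * t ≤ t := mul_le_of_le_one_left ht0.le hσ1
  have hκ1 : κ ≤ 1 / 25600 := by linarith
  have hlQ : 0 ≤ Real.log Q0 := Real.log_nonneg hQ0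
  have hQ00 : 0 < Q0 := by linarith
  -- `x = gs / C1`
  obtain ⟨x, hx⟩ : ∃ x : ℝ, x = gs / C1 := ⟨_, rfl⟩
  have hx0 : 0 < x := by rw [hx]; positivity
  have e5200 : gs / (5200 * C1) = x / 5200 := by rw [hx]; field_simp
  have e2560 : gs / (2560 * C1) = x / 2560 := by rw [hx]; field_simp
  rw [e2560] at hkpg
  have hgθ : gs * θ ≤ x / 800000 := by
    have h1 := mul_le_mul_of_nonneg_left hθ3 hgs.le
    refine h1.trans (le_of_eq ?_)
    rw [hx]; field_simp
  have hσt0 : 0 < σ * t := by positivity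
  have v1 := ev_log_ge 3
  have v2 := ev_lin (a := kp / 64) (by positivity) 0 (Real.log 100)
  have v3 := ev_lin (a := x * (1 / 2560 - 1 / 5120 - 1 / 5200))
    (mul_pos hx0 (by norm_num)) 0 2
  have v4 : ∀ᶠ P : ℝ in atTop, 2 * P ^ (1 - gs / 10) ≤ kp / 64 * P ^ (1 : ℝ) := by
    have h := ev_small (a := 1 - gs / 10) (b := 1) (by linarith) 0 2 (ε := kp / 64) (by positivity)
    filter_upwards [h] with P hP
    simpa using hP
  have v5 := ev_lin (a := 1 / 4) (by norm_num) 0 16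
  have v6 := ev_lin (a := 24 * θ) (by positivity) 12 0
  have v7 := ev_lin (a := 1) one_pos 9 0
  have v8 := ev_lin (a := x * (1 / 5200 - 144 / 800000)) (mul_pos hx0 (by norm_num)) 4 1
  have v9 := ev_lin (a := t) ht0 0 (Real.log Q0)
  have v10 := ev_lin (a := σ * t / 2) (by positivity) 0 (6 + 2 * Real.log Q0)
  have v11 : ∀ᶠ P : ℝ in atTop, δ0⁻¹ ≤ P ^ (1 / 8 : ℝ) := ev_const (by norm_num) _
  obtain ⟨P0, hP0⟩ := eventually_atTop.1 (v1.and (v2.and (v3.and (v4.and (v5.and (v6.and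
    (v7.and (v8.and (v9.and (v10.and v11))))))))))
  refine ⟨max P0 1, le_max_right _ _, ?_⟩
  intro P hP
  obtain ⟨w1, w2, w3, w4, w5, w6, w7, w8, w9, w10, w11⟩ := hP0 P ((le_max_left _ _).trans hP)
  have hP1 : 1 ≤ P := (le_max_right _ _).trans hP
  have hPp : 0 < P := by linarith
  simp only [zero_mul, zero_add] at w2 w3 w5 w9 w10
  have l2 : Real.log 2 ≤ 1 := by linarith [Real.log_two_lt_d9]
  have hκP : κ * P ≤ 1 / 25600 * P := mul_le_mul_of_nonneg_right hκ1 hPp.le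
  have htP : t * P ≤ 1 / 128 * P := mul_le_mul_of_nonneg_right ht1 hPp.le
  have hθP : 256 * θ * P ≤ t * P := mul_le_mul_of_nonneg_right hθt hPp.le
  have htP0 : 0 < t * P := by positivity
  have hgθP : gs * θ * P ≤ x / 800000 * P := mul_le_mul_of_nonneg_right hgθ hPp.le
  refine ⟨hP1, w1, by linarith, ?_, ?_, ?_, ?_, by linarith, ?_, ?_, ?_, ?_, ?_, ?_, ?_⟩
  · rw [e5200, e2560]
    exact ph_thin hPp.le hkpg w3
  · rw [Real.rpow_one] at w4
    rw [mul_comm (1 - gs / 10) (Real.log P), ← Real.rpow_def_of_pos hPp]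
    linarith
  · exact Real.exp_le_exp.2 (by linarith)
  · rw [e16]
    exact ph_VP (by linarith)
  · exact ph_cnt hP1 hgs hgs1 w1 (by linarith)
  · rw [e5200]
    linarith
  · rw [e64, e16]
    exact ph_DM hQ00 (by linarith)
  · rw [e64]
    exact ph_A1 hQ0 hgs hgs1 hθ hPp w1 (mul_le_mul_of_nonneg_right (hkpκ.trans hκ) hPp.le)
      (mul_le_mul_of_nonneg_right hθ2 hPp.le) w10
  · rw [e64]
    exact ph_cap (by linarith)
  · rw [e64]
    rw [le_div_iff₀ (by linarith)] at hθ1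
    have := mul_le_mul_of_nonneg_right hθ1 hPp.le
    linarith
  · rw [Real.rpow_neg hPp.le]
    exact inv_le_of_inv_le₀ hδ0 w11

end Vale.Agent.P042.H258
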