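import Vale.Agent.P042.H258.F1NuB

set_option autoImplicit false
set_option linter.unusedSectionVars false

/-!
# Numbers of the power regime of `P042`: the radii at one instance (helper258)
-/

namespace Vale.Agent.P042.H258

open Finset Polynomial
open Vale.Agent.P042.H739 (Tst Wst q0s q1s)
open Vale.Agent.P042.H860
open Vale.Agent.P042.H883 (JT snT ellT scT esN)
open Vale.Agent.P042.H635 (Lo qL scL M0I m0I F1Par)
open Vale.Agent.P042.H168 (LawNum G0c cW)

/-- the small constants -/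
theorem loc_small {z : Loc} (h : LocOk z) : 0 < z.kap ∧ z.g ≤ 1 / 128 ∧ z.kap = z.g / 32 ∧
    z.kap ≤ 1 / 4096 ∧ 0 < z.cr ∧ z.cr ≤ 1 / 8192 ∧ 12 * (z.g * z.C1) * z.cr = 12 * z.g / 2048 ∧
    z.γ ≤ z.kap / 2000 := by
  have h1 := h.kap
  have h2 := h.g0
  have h3 := h.gC1
  have h4 := h.C1
  have h5 : 32 * (z.g * 4) ≤ 32 * (z.g * z.C1) := by
    have := mul_le_mul_of_nonneg_left h4 h2.le
    linarith
  have hC : 0 < z.C1 := by linarith
  have h6 : z.cr ≤ 1 / 8192 := by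
    rw [h.cr]
    exact one_div_le_one_div_of_le (by norm_num) (by linarith)
  have h7 : 0 < z.cr := by rw [h.cr]; positivity
  refine ⟨by rw [h1]; positivity, by linarith, h1, by linarith, h7, h6, ?_, h.γkap⟩
  rw [h.cr]
  field_simp
  ring

/-- **the numbers of one vector of radii at one instance** -/
theorem num_I {z : Loc} (h : LocOk z) (m : ℕ) {γ ρ : ℝ} (hγe : γ = z.kap / 50)
    (hρe : ρ = 3 * Real.log 2 / 8 - 8 * γ) :
    ∃ s0 : ℕ, ∀ {θ : ℝ}, 0 < θ → ∃ P0 : ℝ, ∀ I : Inst, P0 ≤ I.P →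
      (∀ j : JT I.K0 I.C1 I.P, s0 ≤ snT j) → ∀ rho : Si I.K0 I.C1 I.P → ℝ, (∀ i, 0 ≤ rho i) →
      (∀ i, rho i ≤ Real.exp (-(1 / 2) * esN i.1 + z.γ * esN i.1)) →
      ∀ b0 : ℕ, (b0 : ℝ) ≤ 2 * I.P ^ (12 * (z.g * z.C1)) → ∀ r : JT I.K0 I.C1 I.P → ℝ,
      (∀ j, 0 ≤ r j) → (∀ j, r j ≤ min (Real.exp (z.cr * ellT j)) ((b0 : ℝ) ^ z.cr)) →
      ∃ Rs : ℕ → ℝ, F1Num m (Real.log 2) γ ρ (8 * z.g) (24 * θ * I.P) snT
        (fun i : Lo I z.kap => scT i.1) (fun i : Lo I z.kap => rho i.1)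
        (fun i => Real.exp (γ * scL I z.kap i)) (fun i => Real.log (qL I z.kap i)) r Rs
        (nsI z.kap I.P) (m0I I θ) ⌊2 * θ * I.P / Real.log I.P⌋₊ := by
  obtain ⟨k0, g1, k1, k2, c0, c1, c2, g2⟩ := loc_small h
  have hg0 := h.g0
  have l2 : Real.log 2 < 0.6931471808 := Real.log_two_lt_d9
  have l2' : 0.6931471803 < Real.log 2 := Real.log_two_gt_d9
  have hl0 : 0 < Real.log 2 := by linarith
  have hγ0 : 0 < γ := by rw [hγe]; positivity
  have hcl : z.cr * Real.log 2 ≤ 1 / 8192 := by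
    have := mul_le_mul c1 (by linarith : Real.log 2 ≤ 1) hl0.le (by norm_num)
    linarith
  have hq : 5 * γ / Real.log 2 ≤ 0.0045086 * z.g := by
    rw [div_le_iff₀ hl0, hγe, k1]
    have h1 : 0.0045086 * z.g * 0.6931471803 ≤ 0.0045086 * z.g * Real.log 2 :=
      mul_le_mul_of_nonneg_left l2'.le (by positivity)
    linarith
  have hq0 : 0 < 5 * γ / Real.log 2 := by positivity
  obtain ⟨s0, hs0⟩ := f1d_numbers (b := Real.log 2) (γ := γ) (ρ := ρ) (cr := z.cr) (κ := z.kap)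
    (β' := 12 * (z.g * z.C1)) (g0 := 8 * z.g) (C := 4) m hl0 hγ0 c0 (by norm_num)
    (by rw [hρe, hγe]; linarith) (by rw [hγe]; linarith)
    (by
      rw [hγe, k1]
      have : 8 * z.g * 0.6931471803 ≤ 8 * z.g * Real.log 2 :=
        mul_le_mul_of_nonneg_left l2'.le (by positivity)
      linarith)
    (by
      rw [c2]
      have h1 : (2 - z.kap) * (5 * γ / Real.log 2) ≤ 2 * (5 * γ / Real.log 2) :=
        mul_le_mul_of_nonneg_right (by linarith) hq0.le
      have h2 : (2 - z.kap) * (1 / 2 + 5 * γ / Real.log 2) =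
          1 - z.kap / 2 + (2 - z.kap) * (5 * γ / Real.log 2) := by ring
      rw [h2]
      linarith)
  refine ⟨s0, fun {θ} hθ => ?_⟩
  obtain ⟨P0, hP01, hP0⟩ := hs0 (θ := 24 * θ) (θ1 := θ) (θ2 := 2 * θ) (by positivity)
    (by linarith) (by positivity) (by linarith)
  refine ⟨max P0 (Real.exp 3), ?_⟩
  intro I hP hsn rho hr0 hrho b0 hb0 r hr hrr
  have hPa : P0 ≤ I.P := (le_max_left _ _).trans hP
  have hPb : Real.exp 3 ≤ I.P := (le_max_right _ _).trans hP
  have hPp : 0 < I.P := lt_of_lt_of_le (Real.exp_pos _) hPb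
  have hl : 3 ≤ Real.log I.P := by rwa [Real.le_log_iff_exp_le hPp]
  have hkk : ((m0I I θ : ℕ) : ℝ) ≤ θ * I.P / Real.log I.P :=
    Nat.floor_le (div_nonneg (by positivity) (by linarith))
  refine hP0 I.P hPa snT (fun i : Lo I z.kap => scT i.1) (fun i : Lo I z.kap => rho i.1)
    (fun i => Real.exp (γ * scL I z.kap i)) (fun i => Real.log (qL I z.kap i)) (nsI z.kap I.P)
    (m0I I θ) b0 H883.snT_inj hsn (scL_lt hPp) (exp_ns hPp hl (by linarith)) card_sc
    (fun i => hr0 i.1) (fun i => ?_) (fun i => (Real.exp_pos _).le) (fun i => le_rfl)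
    (fun i => ?_) (fun i => log_qL_le hPp hl k0.le i) hb0 hkk r hr (fun j => ?_)
  · refine (hrho i.1).trans (Real.exp_le_exp.2 ?_)
    have e1 : esN (i.1.1 : ℕ) = scL I z.kap i * Real.log 2 := rfl
    rw [e1]
    have h1 : z.γ * (scL I z.kap i * Real.log 2) ≤ γ * scL I z.kap i := by
      have h2 : z.γ * Real.log 2 ≤ γ := by
        rw [hγe]
        have h3 : z.γ * Real.log 2 ≤ z.γ * 1 := mul_le_mul_of_nonneg_left (by linarith) h.γ0.le
        linarith
      have h4 : (0 : ℝ) ≤ scL I z.kap i := Nat.cast_nonneg _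
      calc z.γ * (scL I z.kap i * Real.log 2) = z.γ * Real.log 2 * scL I z.kap i := by ring
        _ ≤ _ := mul_le_mul_of_nonneg_right h2 h4
    have h5 : (-(Real.log 2 / 2) + γ) * (snT (scT i.1) : ℝ) =
        -(1 / 2) * (scL I z.kap i * Real.log 2) + γ * scL I z.kap i := by
      show (-(Real.log 2 / 2) + γ) * (scL I z.kap i : ℝ) = _
      ring
    rw [h5]
    linarith
  · have h1 : (1 : ℝ) ≤ qL I z.kap i := by exact_mod_cast (qL_prime i).one_lt.le
    exact Real.log_nonneg h1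
  · have h1 : Real.log 2 * (snT j : ℝ) = ellT j := mul_comm _ _
    rw [h1]
    exact hrr j

/-- **the orders zero of the kernels at one instance** -/
theorem e_I {z : Loc} (h : LocOk z) : ∃ s0 : ℕ, ∀ I : Inst,
    (∀ j : JT I.K0 I.C1 I.P, s0 ≤ snT j) → ∀ ee : Si I.K0 I.C1 I.P → ℝ,
    (∀ i, ee i ≤ Real.exp (-esN i.1 + z.γ * esN i.1)) → ∀ j : JT I.K0 I.C1 I.P,
    2 * ∑ i : Lo I z.kap, (if scT i.1 = j then ee i.1 else 0) ≤
      Real.exp (8 * z.g * ellT j) / 4 := by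
  obtain ⟨k0, g1, k1, k2, c0, c1, c2, g2⟩ := loc_small h
  have hg0 := h.g0
  obtain ⟨s0, hs0⟩ := e_num (G := 8 * z.g) (γ := z.γ) (by linarith)
  refine ⟨s0, fun I hsn ee hee j => ?_⟩
  exact hs0 snT ellT (fun i : Lo I z.kap => scT i.1) (fun i : Lo I z.kap => ee i.1)
    (fun j => rfl) hsn (fun i => hee i.1) card_ty j

end Vale.Agent.P042.H258
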