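import Mathlib

/-!
# Numbers of the power regime of `P042`, part A: asymptotic toolbox and the scales (helper258)

`P = log N` is the large parameter.  Everything is of the form: for all large real `P` ...
-/

namespace Vale.Agent.P042.H258

open Finset Filter

/-! ## comparisons -/

/-- `C P^a (log P)^k ≤ P^b` for `a < b` and all large `P`. -/
theorem ev_rpow_log {a b : ℝ} (hab : a < b) (k : ℕ) (C : ℝ) :
    ∀ᶠ P : ℝ in atTop, C * P ^ a * Real.log P ^ k ≤ P ^ b := by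
  have h1 : (fun x : ℝ => Real.log x ^ (k : ℝ)) =o[atTop] fun x => x ^ (b - a) :=
    isLittleO_log_rpow_rpow_atTop (k : ℝ) (sub_pos.mpr hab)
  have h2 := h1.def (show (0 : ℝ) < 1 / (|C| + 1) by positivity)
  filter_upwards [h2, eventually_ge_atTop (1 : ℝ)] with P hP hP1
  have hP0 : 0 < P := by linarith
  have hlog : 0 ≤ Real.log P := Real.log_nonneg hP1
  rw [Real.rpow_natCast, Real.norm_eq_abs, Real.norm_eq_abs, abs_of_nonneg (pow_nonneg hlog k),
    abs_of_nonneg (Real.rpow_nonneg hP0.le _)] at hP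
  have h3 : P ^ b = P ^ a * P ^ (b - a) := by
    rw [← Real.rpow_add hP0]; congr 1; ring
  have hPa : 0 < P ^ a := Real.rpow_pos_of_pos hP0 a
  have h4 : |C| * Real.log P ^ k ≤ P ^ (b - a) := by
    have h5 : (|C| + 1) * (1 / (|C| + 1) * P ^ (b - a)) = P ^ (b - a) := by
      field_simp
    have h6 : (|C| + 1) * Real.log P ^ k ≤ P ^ (b - a) := by
      rw [← h5]
      exact mul_le_mul_of_nonneg_left hP (by positivity)
    have h7 : 0 ≤ Real.log P ^ k := pow_nonneg hlog k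
    linarith [add_mul |C| 1 (Real.log P ^ k)]
  calc C * P ^ a * Real.log P ^ k = P ^ a * (C * Real.log P ^ k) := by ring
    _ ≤ P ^ a * (|C| * Real.log P ^ k) := by
        refine mul_le_mul_of_nonneg_left ?_ hPa.le
        exact mul_le_mul_of_nonneg_right (le_abs_self C) (pow_nonneg hlog k)
    _ ≤ P ^ a * P ^ (b - a) := mul_le_mul_of_nonneg_left h4 hPa.le
    _ = P ^ b := h3.symm

/-- `C P^a ≤ P^b` for `a < b`. -/
theorem ev_rpow {a b : ℝ} (hab : a < b) (C : ℝ) : ∀ᶠ P : ℝ in atTop, C * P ^ a ≤ P ^ b := by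
  filter_upwards [ev_rpow_log hab 0 C] with P hP
  simpa using hP

/-- `C (log P)^k ≤ P^b` for `0 < b`. -/
theorem ev_log {b : ℝ} (hb : 0 < b) (k : ℕ) (C : ℝ) :
    ∀ᶠ P : ℝ in atTop, C * Real.log P ^ k ≤ P ^ b := by
  filter_upwards [ev_rpow_log hb k C] with P hP
  simpa using hP

/-- constants are small -/
theorem ev_const {b : ℝ} (hb : 0 < b) (C : ℝ) : ∀ᶠ P : ℝ in atTop, C ≤ P ^ b := by
  filter_upwards [ev_log hb 0 C] with P hP
  simpa using hP

theorem ev_log_ge (C : ℝ) : ∀ᶠ P : ℝ in atTop, C ≤ Real.log P :=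
  Real.tendsto_log_atTop.eventually_ge_atTop C

/-- `C (log P)^k P^a ≤ ε P^b` -/
theorem ev_small {a b : ℝ} (hab : a < b) (k : ℕ) (C : ℝ) {ε : ℝ} (hε : 0 < ε) :
    ∀ᶠ P : ℝ in atTop, C * P ^ a * Real.log P ^ k ≤ ε * P ^ b := by
  filter_upwards [ev_rpow_log hab k (C / ε)] with P hP
  have h1 := mul_le_mul_of_nonneg_left hP hε.le
  calc C * P ^ a * Real.log P ^ k = ε * (C / ε * P ^ a * Real.log P ^ k) := by
        field_simp
    _ ≤ ε * P ^ b := h1

/-! ## scales -/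

/-- number of scales -/
theorem card_scales {J : Type*} [Fintype J] {sc : J → ℕ} (hinj : Function.Injective sc) {n : ℕ}
    (hn : ∀ j, sc j < n) : Fintype.card J ≤ n := by
  classical
  have h1 : (Finset.univ.image sc).card = Fintype.card J :=
    (Finset.card_image_of_injective _ hinj).trans Finset.card_univ
  rw [← h1]
  have h2 : Finset.univ.image sc ⊆ Finset.range n := by
    intro x hx
    obtain ⟨j, _, rfl⟩ := Finset.mem_image.mp hx
    exact Finset.mem_range.mpr (hn j)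
  simpa using Finset.card_le_card h2

/-- number of scales below `P^A` -/
theorem card_scales' {J : Type*} [Fintype J] {sc : J → ℕ} (hinj : Function.Injective sc)
    {P A : ℝ} (hP : 0 < P) (hA : 0 ≤ A * Real.log P)
    (hn : ∀ j, Real.exp ((sc j : ℝ) * Real.log 2) ≤ P ^ A) :
    (Fintype.card J : ℝ) ≤ 2 * A * Real.log P + 1 := by
  have hl2 : 0 < Real.log 2 := Real.log_pos (by norm_num)
  have hl2' : (1 : ℝ) / 2 < Real.log 2 := by
    have := Real.log_two_gt_d9; linarith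
  have h1 : ∀ j, (sc j : ℝ) ≤ 2 * (A * Real.log P) := by
    intro j
    have h2 := hn j
    rw [Real.rpow_def_of_pos hP, Real.exp_le_exp] at h2
    have h3 : (sc j : ℝ) * (1 / 2) ≤ sc j * Real.log 2 :=
      mul_le_mul_of_nonneg_left hl2'.le (Nat.cast_nonneg _)
    linarith [mul_comm (Real.log P) A]
  have h4 : ∀ j, sc j < ⌊2 * (A * Real.log P)⌋₊ + 1 := by
    intro j
    exact Nat.lt_succ_of_le (Nat.le_floor (h1 j))
  have h5 := card_scales hinj h4
  have h6 : ((⌊2 * (A * Real.log P)⌋₊ + 1 : ℕ) : ℝ) ≤ 2 * (A * Real.log P) + 1 := by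
    push_cast
    have := Nat.floor_le (show 0 ≤ 2 * (A * Real.log P) by linarith)
    linarith
  have h7 : (Fintype.card J : ℝ) ≤ ((⌊2 * (A * Real.log P)⌋₊ + 1 : ℕ) : ℝ) := by exact_mod_cast h5
  linarith

/-- **the numbers `b0`, `rho` of `H984.end_sets2`.**  If all `Bd j` are at most `P^β` then
`b0 = ⌈P^β'⌉` (`β < β'`) dominates `C1 + 900 ∑ Bd + card J + 3`, and
`rho j = min (n_j^cr) (b0^cr)` has the two required properties. -/
theorem end_numbers {C1 cr A β β' : ℝ} (hcr : 0 < cr) (hA : 0 < A) (hβ : 0 ≤ β) (hββ : β < β') :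
    ∃ P0 : ℝ, 1 ≤ P0 ∧ ∀ P : ℝ, P0 ≤ P → ∀ {J : Type*} [Fintype J] (sc : J → ℕ) (Bd : J → ℝ),
      Function.Injective sc → (∀ j, Real.exp ((sc j : ℝ) * Real.log 2) ≤ P ^ A) →
      (∀ j, 3 / cr ≤ (sc j : ℝ) * Real.log 2) → (∀ j, Bd j ≤ P ^ β) →
      ∃ b0 : ℕ, P ^ β' ≤ b0 ∧ (b0 : ℝ) ≤ 2 * P ^ β' ∧
        C1 + 900 * ∑ j, Bd j + Fintype.card J + 3 ≤ b0 ∧
        ∑ j, Bd j ≤ P ^ β' ∧
        (∀ j, Real.exp 3 ≤ min (Real.exp (cr * ((sc j : ℝ) * Real.log 2))) ((b0 : ℝ) ^ cr)) ∧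
        (∀ (j : J) (k : ℕ), k ≠ 0 → k ≤ b0 → (k : ℝ) ≤ Real.exp ((sc j : ℝ) * Real.log 2) →
          cr * Real.log k ≤ Real.log (min (Real.exp (cr * ((sc j : ℝ) * Real.log 2)))
            ((b0 : ℝ) ^ cr))) := by
  have hβ' : 0 < β' := hβ.trans_lt hββ
  have h1 := ev_rpow_log hββ 1 (4 * 900 * (2 * A + 1))
  have h2 := ev_log hβ' 1 (4 * (2 * A + 1))
  have h3 := ev_const hβ' (4 * |C1| + 16)
  have h4 := ev_const hβ' (Real.exp (3 / cr))
  have h5 := ev_log_ge 1
  obtain ⟨P0, hP0⟩ := Filter.eventually_atTop.mp (h1.and (h2.and (h3.and (h4.and h5))))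
  refine ⟨max P0 1, le_max_right _ _, ?_⟩
  intro P hP J _ sc Bd hinj hsA hsc hB
  obtain ⟨e1, e2, e3, e4, e5⟩ := hP0 P ((le_max_left _ _).trans hP)
  rw [pow_one] at e1 e2
  have hP1 : 1 ≤ P := (le_max_right _ _).trans hP
  have hPp : 0 < P := by linarith
  have hPβ : 0 < P ^ β := Real.rpow_pos_of_pos hPp β
  have hPβ' : 0 < P ^ β' := Real.rpow_pos_of_pos hPp β'
  have hcard := card_scales' hinj hPp (by positivity) hsA
  have hcard' : (Fintype.card J : ℝ) ≤ (2 * A + 1) * Real.log P := by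
    have : (2 * A + 1) * Real.log P = 2 * A * Real.log P + Real.log P := by ring
    linarith
  have hsum : ∑ j, Bd j ≤ (2 * A + 1) * Real.log P * P ^ β := by
    calc ∑ j, Bd j ≤ ∑ _j : J, P ^ β := Finset.sum_le_sum fun j _ => hB j
      _ = Fintype.card J * P ^ β := by rw [Finset.sum_const, Finset.card_univ, nsmul_eq_mul]
      _ ≤ _ := mul_le_mul_of_nonneg_right hcard' hPβ.le
  have hb0 : P ^ β' ≤ (⌈P ^ β'⌉₊ : ℝ) := Nat.le_ceil _
  have hb1 : 1 ≤ P ^ β' := by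
    have : 0 ≤ |C1| := abs_nonneg _
    linarith
  have hsum4 : 900 * ∑ j, Bd j ≤ P ^ β' / 4 := by
    have : 4 * 900 * (2 * A + 1) * P ^ β * Real.log P
        = 4 * (900 * ((2 * A + 1) * Real.log P * P ^ β)) := by ring
    linarith
  refine ⟨⌈P ^ β'⌉₊, hb0, ?_, ?_, ?_, ?_, ?_⟩
  · have := (Nat.ceil_lt_add_one hPβ'.le).le
    linarith
  · have h6 : C1 ≤ |C1| := le_abs_self _
    have h7 : 4 * (2 * A + 1) * Real.log P = 4 * ((2 * A + 1) * Real.log P) := by ring
    linarith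
  · linarith
  · intro j
    refine le_min (Real.exp_le_exp.mpr ?_) ?_
    · have := hsc j
      rw [div_le_iff₀ hcr] at this
      linarith
    · have h8 : Real.exp 3 = Real.exp (3 / cr) ^ cr := by
        rw [← Real.exp_mul]; congr 1; field_simp
      rw [h8]
      exact Real.rpow_le_rpow (Real.exp_pos _).le (e4.trans hb0) hcr.le
  · intro j k hk hkb hkn
    have hk0 : (0 : ℝ) < k := by exact_mod_cast Nat.pos_of_ne_zero hk
    have hbp : (0 : ℝ) < (⌈P ^ β'⌉₊ : ℝ) := by linarith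
    have hm : 0 < min (Real.exp (cr * ((sc j : ℝ) * Real.log 2))) ((⌈P ^ β'⌉₊ : ℝ) ^ cr) :=
      lt_min (Real.exp_pos _) (Real.rpow_pos_of_pos hbp _)
    rw [Real.le_log_iff_exp_le hm]
    have hlogk : Real.log k ≤ (sc j : ℝ) * Real.log 2 := by
      rw [Real.log_le_iff_le_exp hk0]; exact hkn
    refine le_min (Real.exp_le_exp.mpr (mul_le_mul_of_nonneg_left hlogk hcr.le)) ?_
    rw [mul_comm, Real.exp_mul, Real.exp_log hk0]
    exact Real.rpow_le_rpow hk0.le (by exact_mod_cast hkb) hcr.le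

end Vale.Agent.P042.H258
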