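import Vale.Agent.P042.H258.NumA

/-!
# Numbers of the power regime of `P042`, part B: the capacity of the lower scales (helper258)
-/

namespace Vale.Agent.P042.H258

open Finset Filter

/-- **the capacity line of `H461.cap_of`**: top scale `exp (b ns) ≤ C P^(2-κ)`, radii at most
`(2 P^β')^cr`, length budget `θ P`. -/
theorem ev_cap {b γ κ β' cr θ C : ℝ} (hb : 0 < b) (hγ : 0 ≤ γ) (hθ : 0 < θ) (hC : 1 ≤ C)
    (hκ : κ ≤ 2) (h : (2 - κ) * (1 / 2 + 5 * γ / b) + β' * cr < 1) :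
    ∀ᶠ P : ℝ in atTop, ∀ (ns : ℕ) (Rm : ℝ), Real.exp (b * ns) ≤ C * P ^ (2 - κ) → 0 ≤ Rm →
      Rm ≤ (2 * P ^ β') ^ cr →
      16 * Real.exp 1 * b * Rm * ns ^ 2 * Real.exp ((b / 2 + 5 * γ) * ns) ≤ θ * P := by
  set q : ℝ := 1 / 2 + 5 * γ / b with hq
  have hq0 : 0 < q := by positivity
  have hlC : 0 ≤ Real.log C := Real.log_nonneg hC
  -- the constant
  set D : ℝ := (Real.log C + |2 - κ|) / b with hD
  have hD0 : 0 ≤ D := by positivity
  have h1 := ev_small (a := (2 - κ) * q + β' * cr) (b := 1) h 2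
    (16 * Real.exp 1 * b * (2 : ℝ) ^ cr * D ^ 2 * C ^ q) hθ
  filter_upwards [h1, eventually_ge_atTop (1 : ℝ), ev_log_ge 1] with P hP hP1 hlP ns Rm hns hR0 hR
  have hP0 : 0 < P := by linarith
  have hC0 : 0 < C := by linarith
  have hCP : 0 < C * P ^ (2 - κ) := mul_pos hC0 (Real.rpow_pos_of_pos hP0 _)
  -- `ns ≤ D log P`
  have hns1 : (ns : ℝ) ≤ D * Real.log P := by
    have h2 : b * ns ≤ Real.log (C * P ^ (2 - κ)) := by
      rw [Real.le_log_iff_exp_le hCP]; exact hns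
    rw [Real.log_mul hC0.ne' (Real.rpow_pos_of_pos hP0 _).ne', Real.log_rpow hP0] at h2
    have h3 : (2 - κ) * Real.log P ≤ |2 - κ| * Real.log P :=
      mul_le_mul_of_nonneg_right (le_abs_self _) (by linarith)
    have h4 : Real.log C ≤ Real.log C * Real.log P := by nlinarith
    rw [hD, div_mul_eq_mul_div, le_div_iff₀ hb]
    linarith [mul_comm b (ns : ℝ), add_mul (Real.log C) |2 - κ| (Real.log P)]
  have hlP0 : 0 ≤ Real.log P := by linarith
  have hns2 : (ns : ℝ) ^ 2 ≤ D ^ 2 * Real.log P ^ 2 := by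
    rw [← mul_pow]
    exact pow_le_pow_left₀ (Nat.cast_nonneg _) hns1 2
  -- the exponential
  have hexp : Real.exp ((b / 2 + 5 * γ) * ns) ≤ C ^ q * P ^ ((2 - κ) * q) := by
    have h5 : (b / 2 + 5 * γ) * ns = (b * ns) * q := by
      rw [hq]; field_simp
    rw [h5, Real.exp_mul]
    refine (Real.rpow_le_rpow (Real.exp_pos _).le hns hq0.le).trans (le_of_eq ?_)
    rw [Real.mul_rpow hC0.le (Real.rpow_nonneg hP0.le _), ← Real.rpow_mul hP0.le]
  have hR' : Rm ≤ (2 : ℝ) ^ cr * P ^ (β' * cr) := by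
    refine hR.trans (le_of_eq ?_)
    rw [Real.mul_rpow (by norm_num) (Real.rpow_nonneg hP0.le _), ← Real.rpow_mul hP0.le]
  have e1 : P ^ ((2 - κ) * q + β' * cr) = P ^ ((2 - κ) * q) * P ^ (β' * cr) :=
    Real.rpow_add hP0 _ _
  calc 16 * Real.exp 1 * b * Rm * ns ^ 2 * Real.exp ((b / 2 + 5 * γ) * ns)
      ≤ 16 * Real.exp 1 * b * ((2 : ℝ) ^ cr * P ^ (β' * cr)) * (D ^ 2 * Real.log P ^ 2) *
          (C ^ q * P ^ ((2 - κ) * q)) := by
        have p1 : 0 ≤ P ^ (β' * cr) := Real.rpow_nonneg hP0.le _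
        have p2 : (0 : ℝ) ≤ (2 : ℝ) ^ cr := Real.rpow_nonneg (by norm_num) _
        gcongr
    _ = 16 * Real.exp 1 * b * (2 : ℝ) ^ cr * D ^ 2 * C ^ q * P ^ ((2 - κ) * q + β' * cr) *
          Real.log P ^ 2 := by rw [e1]; ring
    _ ≤ θ * P ^ (1 : ℝ) := hP
    _ = θ * P := by rw [Real.rpow_one]

end Vale.Agent.P042.H258
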