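import Vale.Agent.P042.H258.NumD

/-!
# Numbers of the power regime of `P042`, part E: the numbers of the final glue (helper258)

`pfin_numbers`: all scalar hypotheses of 85's `pfin` (level 2) and of the passage from its
conclusion to `HLOC`, with `p = log P`, `Bd j = exp (8 g ell j)`.
-/

namespace Vale.Agent.P042.H258

open Finset Filter

theorem exp_rpow' (p x : ℝ) : (Real.exp p) ^ x = Real.exp (x * p) := by
  rw [← Real.exp_mul, mul_comm]

/-- eventually in `p`, from an eventual statement in `P = exp p` -/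
theorem ev_exp {s : ℝ → Prop} (h : ∀ᶠ P : ℝ in atTop, s P) : ∀ᶠ p : ℝ in atTop, s (Real.exp p) :=
  Real.tendsto_exp_atTop.eventually h

/-- `C p^k exp (a p) ≤ ε exp (b p)` for `a < b` -/
theorem ev_pexp {a b : ℝ} (hab : a < b) (k : ℕ) (C : ℝ) {ε : ℝ} (hε : 0 < ε) :
    ∀ᶠ p : ℝ in atTop, C * Real.exp (a * p) * p ^ k ≤ ε * Real.exp (b * p) := by
  have h := ev_exp (ev_small hab k C hε)
  filter_upwards [h] with p hp
  simpa only [Real.log_exp, exp_rpow'] using hp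

theorem pfin_numA {cr : ℝ} (hcr : 0 < cr) :
    ∃ K0 : ℕ, ∀ {C1 C2 g β' : ℝ}, 1 ≤ C1 → 0 < g → 8 * g * C1 < β' → ∃ p0 : ℝ, 1 ≤ p0 ∧ ∀ p : ℝ, p0 ≤ p → ∀ {J : Type*} [Fintype J] (sn : J → ℕ)
      (ell : J → ℝ), Function.Injective sn → (∀ j, ell j = sn j * Real.log 2) →
      (∀ j, K0 ≤ sn j) → (∀ j, ell j ≤ C1 * p + 1) →
      ∃ b0 : ℕ, 2 ≤ b0 ∧ Real.exp (β' * p) ≤ b0 ∧ (b0 : ℝ) ≤ 2 * Real.exp (β' * p) ∧
        C2 + 900 * ∑ j, Real.exp (8 * g * ell j) + Fintype.card J + 3 ≤ b0 ∧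
        ∑ j, Real.exp (8 * g * ell j) ≤ Real.exp (β' * p) ∧
        (∀ j, Real.exp 3 ≤ min (Real.exp (cr * ell j)) ((b0 : ℝ) ^ cr)) ∧
        (∀ (j : J) (n : ℕ), n ≠ 0 → n ≤ b0 → (n : ℝ) ≤ Real.exp (ell j) →
          cr * Real.log n ≤ Real.log (min (Real.exp (cr * ell j)) ((b0 : ℝ) ^ cr))) := by
  have hl2 : 0 < Real.log 2 := Real.log_pos (by norm_num)
  obtain ⟨s0, hs0⟩ := exists_nat_gt (3 / cr / Real.log 2)
  refine ⟨s0, ?_⟩
  intro C1 C2 g β' hC1 hg h1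
  have hgC : 0 < g * C1 := mul_pos hg (by linarith)
  have hβ' : 0 < β' := by linarith
  -- `β` between `8 g C1` and `β'`
  obtain ⟨β, hβ1, hββ⟩ := exists_between h1
  have hβ0 : 0 ≤ β := by linarith
  obtain ⟨P1, hP1, H⟩ := end_numbers (C1 := C2) (cr := cr) (A := C1 + 1) (β := β) (β' := β')
    hcr (by linarith) hβ0 hββ
  have e1 := ev_pexp (a := 8 * g * C1) (b := β) hβ1 0 (Real.exp (8 * g)) one_pos
  obtain ⟨p1, hp1⟩ := eventually_atTop.1 (e1.and (ev_exp (eventually_ge_atTop P1)))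
  refine ⟨max p1 (max 1 (1 / β' * Real.log 2)),
    le_trans (le_max_left _ _) (le_max_right _ _), ?_⟩
  intro p hp J _ sn ell hinj hell hsn htop
  obtain ⟨f1, f9⟩ := hp1 p (le_trans (le_max_left _ _) hp)
  rw [pow_zero, mul_one, one_mul] at f1
  have hpge : 1 ≤ p := le_trans (le_max_left _ _) (le_trans (le_max_right _ _) hp)
  have hpb : Real.log 2 ≤ β' * p := by
    have := le_trans (le_max_right _ _) (le_trans (le_max_right _ _) hp)
    rw [div_mul_eq_mul_div, one_mul, div_le_iff₀ hβ'] at this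
    linarith
  obtain ⟨b0, g1, g2, g3, g4, g5, g6⟩ := H (Real.exp p) f9 sn (fun j => Real.exp (8 * g * ell j))
    hinj (by
      intro j
      rw [exp_rpow', ← hell j]
      exact Real.exp_le_exp.2 ((htop j).trans (by linarith))) (by
      intro j
      have h4 : (s0 : ℝ) ≤ sn j := by exact_mod_cast hsn j
      have h5 : 3 / cr / Real.log 2 ≤ sn j := hs0.le.trans h4
      rwa [div_le_iff₀ hl2] at h5) (by
      intro j
      rw [exp_rpow']
      refine le_trans ?_ f1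
      rw [← Real.exp_add]
      refine Real.exp_le_exp.2 ?_
      have := mul_le_mul_of_nonneg_left (htop j) (by linarith : 0 ≤ 8 * g)
      linarith)
  rw [exp_rpow'] at g1 g2 g4
  simp only [← hell] at g5 g6
  have hb2 : (2 : ℝ) ≤ b0 := by
    refine le_trans ?_ g1
    have := Real.exp_le_exp.2 hpb
    rwa [Real.exp_log (by norm_num)] at this
  exact ⟨b0, by exact_mod_cast hb2, g1, g2, g3, g4, g5, g6⟩

theorem pfin_numB {C1 β' d1 ε θ : ℝ} (hC1 : 1 ≤ C1) (hβ' : 0 < β') (h2 : β' < d1)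
    (h3 : 2 * d1 < 1) (hε : 0 < ε) (hθ : 0 < θ) :
    ∃ p0 : ℝ, 1 ≤ p0 ∧ ∀ p : ℝ, p0 ≤ p → ∀ b0 S : ℝ, 0 ≤ b0 → b0 ≤ 2 * Real.exp (β' * p) →
      S ≤ Real.exp (β' * p) →
      b0 + 1 ≤ Real.exp (d1 * p) ∧ Real.exp (-(ε * Real.exp p)) ≤ 1 / 2 * Real.exp (-(2 * S)) ∧
        b0 + 1 ≤ θ * Real.exp p / p ∧
        b0 * (C1 * p + 1) + Real.exp (2 * d1 * p) + 1 ≤ θ * Real.exp p ∧
        (∀ x, 0 ≤ x → x ≤ C1 * p + 1 → b0 * x ≤ Real.exp (2 * d1 * p)) := by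
  have e2 := ev_pexp (a := β') (b := d1) h2 0 3 one_pos
  have e3 := ev_pexp (a := β') (b := 1) (by linarith) 0 (2 + Real.log 2) hε
  have e4 := ev_pexp (a := β') (b := 1) (by linarith) 1 3 hθ
  have e5 := ev_pexp (a := β') (b := 1) (by linarith) 1 (2 * (C1 + 1))
    (by positivity : 0 < θ / 4)
  have e6 := ev_pexp (a := 2 * d1) (b := 1) h3 0 1 (by positivity : 0 < θ / 4)
  have e7 := ev_pexp (a := 0) (b := 1) one_pos 0 1 (by positivity : 0 < θ / 4)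
  have e8 := ev_pexp (a := β') (b := 2 * d1) (by linarith) 1 (2 * (C1 + 1)) one_pos
  obtain ⟨p1, hp1⟩ := eventually_atTop.1 (e2.and (e3.and (e4.and (e5.and (e6.and (e7.and e8))))))
  refine ⟨max p1 1, le_max_right _ _, ?_⟩
  intro p hp b0 S hb0 g2 g4
  obtain ⟨f2, f3, f4, f5, f6, f7, f8⟩ := hp1 p (le_trans (le_max_left _ _) hp)
  simp only [pow_zero, mul_one, pow_one, one_mul, zero_mul, Real.exp_zero] at f2 f3 f4 f5 f6 f7 f8
  have hpge : 1 ≤ p := le_trans (le_max_right _ _) hp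
  have hp0 : 0 < p := by linarith
  have hl2 : 0 < Real.log 2 := Real.log_pos (by norm_num)
  have hE1 : 1 ≤ Real.exp (β' * p) := Real.one_le_exp (by positivity)
  have hC1p : C1 * p + 1 ≤ (C1 + 1) * p := by linarith
  have h10 : 2 * Real.exp (β' * p) * ((C1 + 1) * p) = 2 * (C1 + 1) * Real.exp (β' * p) * p := by
    ring
  refine ⟨by linarith, ?_, ?_, ?_, ?_⟩
  · have h6 : (1 : ℝ) / 2 * Real.exp (-(2 * S)) = Real.exp (-(Real.log 2) - 2 * S) := by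
      rw [sub_eq_add_neg, Real.exp_add, Real.exp_neg (Real.log 2), Real.exp_log (by norm_num)]
      norm_num
    rw [h6]
    refine Real.exp_le_exp.2 ?_
    have h8 : Real.log 2 * 1 ≤ Real.log 2 * Real.exp (β' * p) :=
      mul_le_mul_of_nonneg_left hE1 hl2.le
    linarith [add_mul 2 (Real.log 2) (Real.exp (β' * p))]
  · rw [le_div_iff₀ hp0]
    have h8 : (b0 + 1) * p ≤ 3 * Real.exp (β' * p) * p :=
      mul_le_mul_of_nonneg_right (by linarith) hp0.le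
    exact h8.trans f4
  · have h9 : b0 * (C1 * p + 1) ≤ 2 * Real.exp (β' * p) * ((C1 + 1) * p) :=
      mul_le_mul g2 hC1p (by positivity) (by positivity)
    rw [h10] at h9
    linarith [mul_pos hθ (Real.exp_pos p)]
  · intro x hx0 hx
    have h9 : b0 * x ≤ 2 * Real.exp (β' * p) * ((C1 + 1) * p) :=
      mul_le_mul g2 (hx.trans hC1p) hx0 (by positivity)
    rw [h10] at h9
    exact h9.trans f8

/-- **the numbers of `pfin`** -/
theorem pfin_numbers {cr : ℝ} (hcr : 0 < cr) :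
    ∃ K0 : ℕ, ∀ {C1 C2 g β' d1 ε θ : ℝ}, 1 ≤ C1 → 0 < g → 8 * g * C1 < β' → β' < d1 →
    2 * d1 < 1 → 0 < ε → 0 < θ → ∃ p0 : ℝ, 1 ≤ p0 ∧ ∀ p : ℝ, p0 ≤ p → ∀ {J : Type*} [Fintype J] (sn : J → ℕ)
      (ell : J → ℝ), Function.Injective sn → (∀ j, ell j = sn j * Real.log 2) →
      (∀ j, K0 ≤ sn j) → (∀ j, ell j ≤ C1 * p + 1) →
      ∃ b0 : ℕ, 2 ≤ b0 ∧ Real.exp (β' * p) ≤ b0 ∧ (b0 : ℝ) ≤ 2 * Real.exp (β' * p) ∧
        (b0 : ℝ) + 1 ≤ Real.exp (d1 * p) ∧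
        C2 + 900 * ∑ j, Real.exp (8 * g * ell j) + Fintype.card J + 3 ≤ b0 ∧
        (∀ j, Real.exp 3 ≤ min (Real.exp (cr * ell j)) ((b0 : ℝ) ^ cr)) ∧
        (∀ (j : J) (n : ℕ), n ≠ 0 → n ≤ b0 → (n : ℝ) ≤ Real.exp (ell j) →
          cr * Real.log n ≤ Real.log (min (Real.exp (cr * ell j)) ((b0 : ℝ) ^ cr))) ∧
        Real.exp (-(ε * Real.exp p)) ≤
          1 / 2 * Real.exp (-(2 * ∑ j, Real.exp (8 * g * ell j))) ∧
        (b0 : ℝ) + 1 ≤ θ * Real.exp p / p ∧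
        b0 * (C1 * p + 1) + Real.exp (2 * d1 * p) + 1 ≤ θ * Real.exp p ∧
        (∀ j, b0 * ell j ≤ Real.exp (2 * d1 * p)) := by
  obtain ⟨K0, H0⟩ := pfin_numA hcr
  refine ⟨K0, ?_⟩
  intro C1 C2 g β' d1 ε θ hC1 hg h1 h2 h3 hε hθ
  have hβ' : 0 < β' := by
    have : 0 < 8 * g * C1 := by positivity
    linarith
  obtain ⟨p1, hp1, H1⟩ := H0 (C1 := C1) (C2 := C2) hC1 hg h1
  obtain ⟨p2, hp2, H2⟩ := pfin_numB (C1 := C1) hC1 hβ' h2 h3 hε hθ
  refine ⟨max p1 p2, le_trans hp1 (le_max_left _ _), ?_⟩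
  intro p hp J _ sn ell hinj hell hsn htop
  obtain ⟨b0, a1, a2, a3, a4, a5, a6, a7⟩ :=
    H1 p (le_trans (le_max_left _ _) hp) sn ell hinj hell hsn htop
  obtain ⟨c1, c2, c3, c4, c5⟩ := H2 p (le_trans (le_max_right _ _) hp) b0 _ (Nat.cast_nonneg _)
    a3 a5
  refine ⟨b0, a1, a2, a3, c1, a4, a6, a7, c2, c3, c4, fun j => c5 _ ?_ (htop j)⟩
  rw [hell]
  exact mul_nonneg (Nat.cast_nonneg _) (Real.log_nonneg (by norm_num))

end Vale.Agent.P042.H258
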