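import Vale.Agent.P042.H258.NumD

/-!
# Numbers of the power regime of `P042`, part F: the number `N = 2 d` of `H635.hE_side` (helper258)
-/

namespace Vale.Agent.P042.H258

open Finset Filter

/-- `d + 2 ∑ σ ≤ 2 d` for `σ = (8 m + 32) s` -/
theorem F1Num.two_d {ι J : Type*} [Fintype ι] [Fintype J] {m : ℕ} {b γ ρ g0 Λ : ℝ} {sn : J → ℕ}
    {ty : ι → J} {rh c ℓ : ι → ℝ} {r : J → ℝ} {Rs : ℕ → ℝ} {ns kk d : ℕ}
    (H : F1Num m b γ ρ g0 Λ sn ty rh c ℓ r Rs ns kk d) (hm : 1 ≤ m) (hc : ∀ i, 0 ≤ c i) :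
    (d : ℝ) + 2 * ∑ i, (8 * (m : ℝ) + 32) * (2 * rh i * r (ty i)) ≤ ((2 * d : ℕ) : ℝ) := by
  have h1 : ∑ i, (8 * (m : ℝ) + 32) * (2 * rh i * r (ty i)) ≤
      ∑ i, (8 * (m : ℝ) * (1 + c i)) ^ 2 * (2 * rh i * r (ty i)) := by
    refine sum_le_sum fun i _ => mul_le_mul_of_nonneg_right ?_ (H.s0 i)
    have hm1 : (1 : ℝ) ≤ m := by exact_mod_cast hm
    have h2 : (8 * (m : ℝ)) ^ 2 ≤ (8 * m * (1 + c i)) ^ 2 := by
      refine pow_le_pow_left₀ (by positivity) ?_ 2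
      have := hc i
      have h3 : (8 * (m : ℝ)) * 1 ≤ (8 * m) * (1 + c i) :=
        mul_le_mul_of_nonneg_left (by linarith) (by positivity)
      linarith
    have h4 : (m : ℝ) * 1 ≤ m * m := mul_le_mul_of_nonneg_left hm1 (by linarith)
    have h5 : (8 * (m : ℝ)) ^ 2 = 64 * (m * m) := by ring
    linarith
  have h2 := H.hd
  have h3 : (0 : ℝ) ≤ kk := Nat.cast_nonneg _
  push_cast
  linarith

/-- `2 (N lm) ≤ Λ` for `N = 2 d`, `lm = 3 log P` -/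
theorem d_len {θ θ2 P : ℝ} (hP : 0 ≤ P) (hl : 0 < Real.log P) (h2 : 0 ≤ θ2) (h : 12 * θ2 ≤ θ) :
    2 * (((2 * ⌊θ2 * P / Real.log P⌋₊ : ℕ) : ℝ) * (3 * Real.log P)) ≤ θ * P := by
  have h3 : ((⌊θ2 * P / Real.log P⌋₊ : ℕ) : ℝ) ≤ θ2 * P / Real.log P :=
    Nat.floor_le (div_nonneg (mul_nonneg h2 hP) hl.le)
  rw [le_div_iff₀ hl] at h3
  push_cast
  have h4 : 12 * θ2 * P ≤ θ * P := mul_le_mul_of_nonneg_right h hP
  linarith

end Vale.Agent.P042.H258
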